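import Crest.Agent.X212.Sw87.Base
import Crest.Agent.X212.Wd38.Ctx

/-!
# X212 / Dif17 (helper17): positive diffeomorphisms of fillings

* `pos_e`, `exists_pos` (two oriented fillings of slopes `± a` are positively diffeomorphic), `dif : Sw87.DifStmt`.
-/

set_option autoImplicit false
set_option linter.unusedSectionVars false

open Set Filter Topology Function
open scoped ContDiff Manifold
open Crest.Agent.R208.F (Ext)
open Crest.GeometryTopology.DehnSurgery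
open Crest.Agent.X212.Orx52 Crest.Agent.X212.Rod53 Crest.Agent.X212.Bor5.T Crest.Agent.X212.Sw87
open Crest.Agent.X212.Int54 (Ori)
open Crest.Agent.X212.Dr59 (pm)
open Crest.Agent.X212.Ext52 (KD Fill)
open Crest.Agent.X212.Glue52 (ld_val)

noncomputable section

namespace Crest.Agent.X212.Dif17

section gen

variable {EN HN : Type} [NormedAddCommGroup EN] [NormedSpace ℝ EN] [FiniteDimensional ℝ EN]
  [TopologicalSpace HN] {IN : ModelWithCorners ℝ EN HN} [IN.Boundaryless]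
  {N : Type} [TopologicalSpace N] [ChartedSpace HN N] [IsManifold IN ∞ N] [T2Space N]
  {EY HY : Type} [NormedAddCommGroup EY] [NormedSpace ℝ EY] [FiniteDimensional ℝ EY] [TopologicalSpace HY]
  {IY : ModelWithCorners ℝ EY HY} [IY.Boundaryless] {Y : Type} [TopologicalSpace Y] [ChartedSpace HY Y]
  [IsManifold IY ∞ Y]
  {EZ HZ : Type} [NormedAddCommGroup EZ] [NormedSpace ℝ EZ] [FiniteDimensional ℝ EZ] [TopologicalSpace HZ]
  {IZ : ModelWithCorners ℝ EZ HZ} [IZ.Boundaryless] {Z : Type} [TopologicalSpace Z] [ChartedSpace HZ Z]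
  [IsManifold IZ ∞ Z] {T : Tb IN N} {a b a' b' : Z2} {o : N → Ext EN} {c : Y → Ext EY} {c' : Z → Ext EZ}

theorem pos_e (F : Fl T a b IY Y) (ho : OriOn IN T.Ex o) (h : Pos IN IY F.ie univ (pm IN IN Subtype.val o) c) :
    Pos IN IY F.e T.Ex o c := by
  rw [show F.ie = F.e ∘ Subtype.val from funext fun q => (F.e_ie q).symm] at h
  exact (h.of_comp (pos_pm ho (fun y _ => ld_val F.W y) fun y _ => (F.hW _).1 y.2)
    (fun y _ => F.ld_e ((F.hW _).1 y.2)) fun y _ => ld_val F.W y).mono fun p hp => ⟨⟨p, (F.hW p).2 hp⟩, trivial, rfl⟩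

theorem exists_pos (F : Fl T a b IY Y) (F' : Fl T a' b' IZ Z) (hu : Uni a b) (hu' : Uni a' b') (e : PM a a')
    (hc : Ori IY c) (hc' : Ori IZ c') (h : Pos IN IY F.e T.Ex o c) (h' : Pos IN IZ F'.e T.Ex o c') :
    ∃ Φ : Y ≃ₘ^∞⟮IY, IZ⟯ Z, (∀ p ∈ T.Ex, Φ (F.e p) = F'.e p) ∧ Pos IY IZ Φ univ c c' := by
  obtain ⟨G, hG⟩ := F'.exists_chg hu' hu e
  obtain ⟨Φ, k, -⟩ := F.exists_diffeo G
  have k' := fun p hp => (k p hp).trans (hG p hp)
  exact ⟨Φ, k', Pos.dense F.dense_e isOpen_univ (((h'.congr (f' := Φ ∘ F.e) T.isOpen_Ex k').of_comp h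
    (fun _ _ => Φ.isLocalDiffeomorph _) fun _ => F.ld_e).mono inter_subset_right) (oriOn hc _) (oriOn hc' univ)
    (fun _ _ => Φ.isLocalDiffeomorph _) (mapsTo_univ _ _)⟩

end gen

/-- comparison with the standard filling -/
theorem exists_std {k : KD} {A : O3} {a : Z2} (f : Fo (tK k) A a) {σ : FillingData} (e : sa σ = a) :
    ∃ Φ : A.Y.M ≃ₘ^∞⟮A.Y.I, 𝓡 3⟯ Fill k.toTube σ, Pos A.Y.I (𝓡 3) Φ univ A.o (-oF _ σ) :=
  let ⟨Φ, _, h⟩ := exists_pos f.F (ofFill k.toTube σ) f.hu (uni_s σ) (.inl e.symm) A.ori (ori_neg (ori_oF _ _))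
    (pos_e f.F (tK k).ori f.pos) (pos_e _ (oriOn (ori_oS _) _) (pos_ie _ σ)).neg
  ⟨Φ, h⟩

theorem pd_of {k k' : KD} {A B : O3} {a b : Z2} (f : Fo (tK k) A a) (g : Fo (tK k') B b) {σ σ' : FillingData}
    (e : sa σ = a) (e' : sa σ' = b) (ψ : Fill k.toTube σ ≃ₘ^∞⟮𝓡 3, 𝓡 3⟯ Fill k'.toTube σ')
    (h : Pos (𝓡 3) (𝓡 3) ψ univ (oF _ _) (oF _ _)) : Nonempty (PD A B) :=
  let ⟨Φ, p⟩ := exists_std f e
  let ⟨Ψ, q⟩ := exists_std g e'
  ⟨⟨(Φ.trans ψ).trans Ψ.symm, Pos.of_comp_left (f := Ψ) (g := (Φ.trans ψ).trans Ψ.symm)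
    ((h.neg.comp p (fun _ _ => ψ.isLocalDiffeomorph _) (fun _ _ => Φ.isLocalDiffeomorph _)
      (mapsTo_univ _ _)).congr isOpen_univ fun _ _ => Ψ.apply_symm_apply _) q (fun _ _ => Ψ.isLocalDiffeomorph _)
    (fun _ _ => Diffeomorph.isLocalDiffeomorph _ _) (mapsTo_univ _ _)⟩⟩

theorem cop {p q : ℤ} {b : Z2} (h : Uni (q, p) b) : IsCoprime p q :=
  ⟨-(dt (q, p) b * b.1), dt (q, p) b * b.2, by have := h.sq; simp only [dt] at this ⊢; linear_combination this⟩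

/-- **R-DIF** -/
theorem dif : DifStmt where
  uniq τ A B _ _ f g e :=
    let ⟨Φ, _, h⟩ := exists_pos f.F g.F f.hu g.hu e A.ori B.ori (pos_e f.F τ.ori f.pos) (pos_e g.F τ.ori g.pos)
    ⟨⟨Φ, h⟩⟩
  cos _ _ _ _ _ _ f g h :=
    let ⟨ψ, p⟩ := Wd38.exists_gf h (cop f.hu) (cop g.hu)
    pd_of f g (Wd38.sa_fd ⟨_, f.hu⟩) (Wd38.sa_fd ⟨_, g.hu⟩) ψ p
  cab k _ _ f g :=
    let ⟨ψ, p⟩ := Wd38.exists_gc k
    pd_of f g (Wd38.sa_fd ⟨_, f.hu⟩) (Wd38.sa_fd ⟨_, g.hu⟩) ψ p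

end Crest.Agent.X212.Dif17
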